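import Vale.Agent.P141.H610.Cut
import Vale.Agent.P141.H540.Lift

/-!
# P141, line W, end lemma: one slot on the line, cut by the used cells

Everything is stated for a block family `CBlk0 s Λ A e K` of the cells of `gr 7 s`; instances are
`cblk0_mv` (block slot of a region, `A = cutR ud (mv t F)`, packing `K + 1`) and `cblk0_st`
(static slot, `A = cutR ud (st F)`, packing `1`) of `H610/Cut`.

* `sum_near_le`, `sum_near2_le`, `line_le`, `line2_le` : energies on every interval and of the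
  lifts in one variable;
* `exists_changes` : the changed points of the family and the energy of the family near them.
-/

namespace Vale.Agent.P141.H362

open Finset
open Vale.Agent.P141.PL.H95 (gr mem_gr card_gr)
open Vale.Agent.P141.H315 (dot)
open Vale.Agent.P141.PL.H855 (CBlk0 sum_le_cells)

noncomputable section

open scoped Classical

/-- the cells of one scale are classes -/
theorem mem_cube_comm {s : ℤ} {k : ℕ} {x y : ℤ} (h : y ∈ (gr 7 s).cube k x) :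
    x ∈ (gr 7 s).cube k y := mem_gr.2 (mem_gr.1 h).symm

/-- **Densities of the cells of scale `k` are densities of the cells of every coarser scale.** -/
theorem sum_cube_le {s : ℤ} {k N : ℕ} (hk : k ≤ N) {F : ℤ → ℝ} {b : ℝ}
    (hb : ∀ x, ∑ z ∈ (gr 7 s).cube k x, F z ≤ b * 2 ^ (k + 7)) (x : ℤ) :
    ∑ z ∈ (gr 7 s).cube N x, F z ≤ b * 2 ^ (N + 7) := by
  set Q := (gr 7 s).cube N x with hQ
  have hsub : ∀ z ∈ Q, (gr 7 s).cube k z ⊆ Q := fun z hz => (gr 7 s).cube_subset hk hz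
  have h1 : ∑ y ∈ Q, ∑ z ∈ (gr 7 s).cube k y, F z = ∑ z ∈ Q, ∑ _y ∈ (gr 7 s).cube k z, F z := by
    refine sum_comm' fun y z => ⟨fun h => ?_, fun h => ?_⟩
    · exact ⟨mem_cube_comm h.2, hsub y h.1 h.2⟩
    · exact ⟨hsub z h.2 h.1, mem_cube_comm h.1⟩
  have h2 : ∑ z ∈ Q, ∑ _y ∈ (gr 7 s).cube k z, F z = 2 ^ (k + 7) * ∑ z ∈ Q, F z := by
    rw [mul_sum]
    refine sum_congr rfl fun z _ => ?_
    rw [sum_const, card_gr, nsmul_eq_mul]
    push_cast
    ring
  have h3 : ∑ y ∈ Q, ∑ z ∈ (gr 7 s).cube k y, F z ≤ 2 ^ (N + 7) * (b * 2 ^ (k + 7)) := by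
    refine (sum_le_sum fun y _ => hb y).trans (le_of_eq ?_)
    rw [sum_const, hQ, card_gr, nsmul_eq_mul]
    push_cast
    ring
  rw [h1, h2] at h3
  have h4 : (0 : ℝ) < 2 ^ (k + 7) := by positivity
  have h5 : 2 ^ (k + 7) * ∑ z ∈ Q, F z ≤ 2 ^ (k + 7) * (b * 2 ^ (N + 7)) := by
    refine h3.trans (le_of_eq ?_); ring
  exact le_of_mul_le_mul_left h5 h4

section energies

variable {s : ℤ} {Λ : ℕ} {A : ℕ → ℤ → ℝ} {e K : ℝ}

theorem en_sq (hA : CBlk0 s Λ A e K) {k : ℕ} (hk : k ≤ Λ) (x : ℤ) :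
    ∑ z ∈ (gr 7 s).cube k x, A k z ^ 2 ≤ e * 2 ^ (k + 7) := by
  refine le_trans (le_of_eq ?_) (hA.en k hk x)
  unfold dot
  exact sum_congr rfl fun z _ => sq _

theorem en_nonneg (hA : CBlk0 s Λ A e K) : 0 ≤ e := by
  have h := en_sq hA (Nat.zero_le Λ) 0
  have h1 : (0 : ℝ) ≤ ∑ z ∈ (gr 7 s).cube 0 0, A 0 z ^ 2 := sum_nonneg fun _ _ => sq_nonneg _
  have h2 : (0 : ℝ) < 2 ^ (0 + 7) := by positivity
  by_contra h3
  push Not at h3
  have := mul_neg_of_neg_of_pos h3 h2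
  linarith

theorem pack_nonneg (hA : CBlk0 s Λ A e K) : 0 ≤ K := by
  obtain ⟨ev, -, -, h3⟩ := hA.win
  have h := h3 0 (Nat.zero_le Λ) 0
  have h1 : (0 : ℝ) ≤ ∑ z ∈ (gr 7 s).cube 0 0, ∑ k ∈ range (0 + 1),
      (if ev k z then (1 : ℝ) else 0) :=
    sum_nonneg fun _ _ => sum_nonneg fun _ _ => by split_ifs <;> norm_num
  have h2 : (0 : ℝ) < 2 ^ (0 + 7) := by positivity
  by_contra h4
  push Not at h4
  have := mul_neg_of_neg_of_pos h4 h2
  linarith

/-- energy of the scale `k` on an interval which is measured at the scale `N ≥ k` -/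
theorem sum_ico_le (hA : CBlk0 s Λ A e K) {k N : ℕ} (hkN : k ≤ N) (hN : N ≤ Λ) {a : ℤ} {m : ℕ}
    {I : Finset ℤ} (hI : ∀ z ∈ I, a ≤ z ∧ z < a + m * 2 ^ (N + 7)) :
    ∑ z ∈ I, A k z ^ 2 ≤ (m + 1) * (e * 2 ^ (N + 7)) :=
  sum_le_cells (s := s) (fun z => A k z ^ 2) (fun _ => sq_nonneg _) hI
    fun x => sum_cube_le hkN (fun y => en_sq hA (hkN.trans hN) y) x

/-- energy of the scale `k` on a set of diameter at most `r 2^(N+1)` -/
theorem sum_near_le (hA : CBlk0 s Λ A e K) {k N : ℕ} (hkN : k ≤ N) (hN : N ≤ Λ) {c : ℤ} {r : ℕ}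
    {I : Finset ℤ} (hI : ∀ z ∈ I, |z - c| ≤ r * 2 ^ N) :
    ∑ z ∈ I, A k z ^ 2 ≤ (r + 2) * (e * 2 ^ (N + 7)) := by
  have h2 : (0 : ℤ) < 2 ^ N := by positivity
  have e7 : (2 : ℤ) ^ (N + 7) = 2 ^ N * 128 := by rw [pow_add]; norm_num
  have h := sum_ico_le hA hkN hN (a := c - r * 2 ^ N) (m := r + 1) (I := I) (fun z hz => by
    have h1 := abs_le.1 (hI z hz)
    refine ⟨by linarith, ?_⟩
    rw [e7]
    push_cast
    have h3 : (0 : ℤ) ≤ (r : ℤ) := Int.natCast_nonneg r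
    nlinarith [mul_nonneg h3 h2.le])
  refine h.trans (le_of_eq ?_)
  push_cast
  ring

/-- the same for short intervals: two cells -/
theorem sum_near2_le (hA : CBlk0 s Λ A e K) {k N : ℕ} (hkN : k ≤ N) (hN : N ≤ Λ) {c : ℤ} {r : ℕ}
    (hr : r ≤ 63) {I : Finset ℤ} (hI : ∀ z ∈ I, |z - c| ≤ r * 2 ^ N) :
    ∑ z ∈ I, A k z ^ 2 ≤ 256 * e * 2 ^ N := by
  have h2 : (0 : ℤ) < 2 ^ N := by positivity
  have e7 : (2 : ℤ) ^ (N + 7) = 2 ^ N * 128 := by rw [pow_add]; norm_num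
  have h := sum_ico_le hA hkN hN (a := c - r * 2 ^ N) (m := 1) (I := I) (fun z hz => by
    have h1 := abs_le.1 (hI z hz)
    refine ⟨by linarith, ?_⟩
    rw [e7]
    push_cast
    have h3 : (r : ℤ) ≤ 63 := by exact_mod_cast hr
    nlinarith [mul_le_mul_of_nonneg_right h3 h2.le])
  refine h.trans (le_of_eq ?_)
  push_cast
  rw [pow_add]
  ring

/-- **Intervals of length `m 2^N`, `m ≤ 128`: two cells.** -/
theorem sum_Ico_le (hA : CBlk0 s Λ A e K) {k N : ℕ} (hkN : k ≤ N) (hN : N ≤ Λ) (a : ℤ) {m : ℕ}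
    (hm : m ≤ 128) : ∑ z ∈ Ico a (a + m * 2 ^ N), A k z ^ 2 ≤ 256 * e * 2 ^ N := by
  have h2 : (0 : ℤ) < 2 ^ N := by positivity
  have e7 : (2 : ℤ) ^ (N + 7) = 2 ^ N * 128 := by rw [pow_add]; norm_num
  have h := sum_ico_le hA hkN hN (a := a) (m := 1) (I := Ico a (a + m * 2 ^ N)) (fun z hz => by
    rw [mem_Ico] at hz
    refine ⟨hz.1, ?_⟩
    rw [e7]
    push_cast
    have h3 : (m : ℤ) ≤ 128 := by exact_mod_cast hm
    nlinarith [mul_le_mul_of_nonneg_right h3 h2.le, hz.2])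
  refine h.trans (le_of_eq ?_)
  push_cast
  rw [pow_add]
  ring

/-- the lift in one variable, any bounded set of that variable -/
theorem line_gen (hA : CBlk0 s Λ A e K) {k N : ℕ} (hkN : k ≤ N) (hN : N ≤ Λ) {t d c : ℤ}
    (hd : d ≠ 0) {X : Finset ℤ} (hX : ∀ x ∈ X, |x - c| ≤ 2 ^ N) :
    ∑ x ∈ X, A k (t + d * x) ^ 2 ≤ (d.natAbs + 2) * (e * 2 ^ (N + 7)) := by
  have hinj : Set.InjOn (fun x => t + d * x) (X : Set ℤ) := by
    intro x _ y _ h
    have h1 : d * x = d * y := by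
      have : t + d * x = t + d * y := h
      linarith
    exact mul_left_cancel₀ hd h1
  have e1 : ∑ x ∈ X, A k (t + d * x) ^ 2 = ∑ z ∈ X.image fun x => t + d * x, A k z ^ 2 :=
    (sum_image (f := fun z => A k z ^ 2) hinj).symm
  rw [e1]
  refine sum_near_le hA hkN hN (c := t + d * c) (r := d.natAbs) fun z hz => ?_
  obtain ⟨x, hx, rfl⟩ := mem_image.1 hz
  have h1 : t + d * x - (t + d * c) = d * (x - c) := by ring
  rw [h1, abs_mul, Int.natCast_natAbs]
  exact mul_le_mul_of_nonneg_left (hX x hx) (abs_nonneg _)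

/-- **The energy of the lift on the lines**: two cells. -/
theorem line2_gen (hA : CBlk0 s Λ A e K) {k N : ℕ} (hkN : k ≤ N) (hN : N ≤ Λ) {t d c : ℤ}
    (hd : d ≠ 0) (hd' : |d| ≤ 63) {X : Finset ℤ} (hX : ∀ x ∈ X, |x - c| ≤ 2 ^ N) :
    ∑ x ∈ X, A k (t + d * x) ^ 2 ≤ 256 * e * 2 ^ N := by
  have hinj : Set.InjOn (fun x => t + d * x) (X : Set ℤ) := by
    intro x _ y _ h
    have h1 : d * x = d * y := by
      have : t + d * x = t + d * y := h
      linarith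
    exact mul_left_cancel₀ hd h1
  have e1 : ∑ x ∈ X, A k (t + d * x) ^ 2 = ∑ z ∈ X.image fun x => t + d * x, A k z ^ 2 :=
    (sum_image (f := fun z => A k z ^ 2) hinj).symm
  rw [e1]
  refine sum_near2_le hA hkN hN (c := t + d * c) (r := d.natAbs) ?_ fun z hz => ?_
  · have h3 : (d.natAbs : ℤ) ≤ 63 := by rw [Int.natCast_natAbs]; exact hd'
    exact_mod_cast h3
  obtain ⟨x, hx, rfl⟩ := mem_image.1 hz
  have h1 : t + d * x - (t + d * c) = d * (x - c) := by ring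
  rw [h1, abs_mul, Int.natCast_natAbs]
  exact mul_le_mul_of_nonneg_left (hX x hx) (abs_nonneg _)

theorem iv_near {k : ℕ} {n x : ℤ} (hx : x ∈ PL.iv k n) : |x - 2 ^ k * n| ≤ 2 ^ k := by
  unfold PL.iv at hx
  rw [mem_Ico] at hx
  rw [abs_le]
  have : (0 : ℤ) < 2 ^ k := by positivity
  constructor <;> linarith

/-- **The line energies on the dyadic intervals**, current scale -/
theorem line_iv (hA : CBlk0 s Λ A e K) {k : ℕ} (hk : k ≤ Λ) {t d : ℤ} (hd : d ≠ 0)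
    (hd' : |d| ≤ 63) (n : ℤ) : ∑ x ∈ PL.iv k n, A k (t + d * x) ^ 2 ≤ 256 * e * 2 ^ k :=
  line2_gen hA le_rfl hk hd hd' fun _ hx => iv_near hx

/-- **The line energies on the dyadic intervals**, next scale -/
theorem line_iv_succ (hA : CBlk0 s Λ A e K) {k : ℕ} (hk : k + 1 ≤ Λ) {t d : ℤ} (hd : d ≠ 0)
    (hd' : |d| ≤ 63) (n : ℤ) : ∑ x ∈ PL.iv k n, A (k + 1) (t + d * x) ^ 2 ≤ 512 * e * 2 ^ k := by
  refine (line2_gen hA le_rfl hk hd hd' (c := 2 ^ k * n) fun x hx => (iv_near hx).trans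
    (pow_le_pow_right₀ (by norm_num) (Nat.le_succ k))).trans (le_of_eq ?_)
  rw [pow_succ]
  ring

/-- the line energies of all the scales on a root of the scale `N` -/
theorem line_root (hA : CBlk0 s Λ A e K) {k N : ℕ} (hkN : k ≤ N) (hN : N ≤ Λ) {t d : ℤ}
    (hd : d ≠ 0) (hd' : |d| ≤ 63) (n : ℤ) :
    ∑ x ∈ PL.iv N n, A k (t + d * x) ^ 2 ≤ 256 * e * 2 ^ N :=
  line2_gen hA hkN hN hd hd' fun _ hx => iv_near hx

end energies

section changes

/-- the points near the set `T k` -/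
def nb (ρ : ℕ) (T : ℕ → ℤ → Prop) (k : ℕ) (z : ℤ) : Prop :=
  ∃ z', T k z' ∧ |z - z'| ≤ ρ * (2 ^ k - 1)

/-- the form in which `pwr_lft_le`, `pow_sum` want the neighbourhood -/
theorem nb_of {ρ : ℕ} {T : ℕ → ℤ → Prop} {d d' : ℤ} (hρ : |d| + |d'| ≤ ρ) :
    ∀ k : ℕ, ∀ z z', T k z' → |z - z'| ≤ (|d| + |d'|) * (2 ^ k - 1) → nb ρ T k z := by
  intro k z z' h1 h2
  refine ⟨z', h1, h2.trans ?_⟩
  have : (1 : ℤ) ≤ 2 ^ k := one_le_pow₀ (by norm_num)
  exact mul_le_mul_of_nonneg_right hρ (by linarith)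

variable {s : ℤ}

/-- **The mass near the cells of a packed family.** -/
theorem sum_nb_le {ev : ℕ → ℤ → Prop} {Λ : ℕ} {K : ℝ}
    (hc : ∀ k x y, y ∈ (gr 7 s).cube k x → (ev k y ↔ ev k x))
    (hp : ∀ k₀ ≤ Λ, ∀ x, ∑ z ∈ (gr 7 s).cube k₀ x, ∑ k ∈ range (k₀ + 1),
      (if ev k z then (1 : ℝ) else 0) ≤ K * 2 ^ (k₀ + 7))
    {φ : ℕ → ℤ → ℝ} {b : ℝ} (hφ : ∀ k z, 0 ≤ φ k z) (hb : 0 ≤ b) {N : ℕ} (hN : N ≤ Λ)
    (hφb : ∀ k < N, ∀ x, ∑ z ∈ (gr 7 s).cube (k + 1) x, φ k z ≤ b * 2 ^ (k + 8))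
    {ρ m : ℕ} {a : ℤ} {I : Finset ℤ} (hI : ∀ z ∈ I, a ≤ z ∧ z < a + m * 2 ^ N) :
    ∑ k ∈ range N, ∑ z ∈ I, (if nb ρ ev k z then φ k z else 0) ≤
      256 * (ρ + 3) * (m + 2 * ρ + 3) * (b * K * 2 ^ N) := by
  set J : Finset ℤ := Ico (a - (ρ + 128) * 2 ^ N) (a + m * 2 ^ N + (ρ + 128) * 2 ^ N) with hJ
  -- one scale
  have key : ∀ k < N, ∑ z ∈ I, (if nb ρ ev k z then φ k z else 0) ≤
      2 * (ρ + 3) * b * ∑ y ∈ J, (if ev k y then (1 : ℝ) else 0) := by
    intro k hk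
    have p1 : (0 : ℤ) < 2 ^ k := by positivity
    have p2 : (0 : ℝ) < 2 ^ (k + 7) := by positivity
    have e7 : (2 : ℤ) ^ (k + 7) = 2 ^ k * 128 := by rw [pow_add]; norm_num
    have e8 : (2 : ℤ) ^ (k + 1 + 7) = 2 ^ k * 256 := by rw [pow_add, pow_succ]; ring
    have pkN : (2 : ℤ) ^ k ≤ 2 ^ N := pow_le_pow_right₀ (by norm_num) hk.le
    have hρ0 : (0 : ℤ) ≤ (ρ : ℤ) := Int.natCast_nonneg ρ
    -- a point near a changed point sees a whole changed cell
    have h1 : ∀ z ∈ I, 2 ^ (k + 7) * (if nb ρ ev k z then φ k z else 0) ≤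
        ∑ y ∈ J, (if ev k y ∧ |z - y| ≤ (ρ + 128) * 2 ^ k then φ k z else 0) := by
      intro z hz
      by_cases h : nb ρ ev k z
      · rw [if_pos h]
        obtain ⟨z', h2, h3⟩ := h
        have h4 : (gr 7 s).cube k z' ⊆
            J.filter fun y => ev k y ∧ |z - y| ≤ (ρ + 128) * 2 ^ k := by
          intro y hy
          have h5 : |y - z'| ≤ 2 ^ (k + 7) := by
            have h6 := mem_gr.1 hy
            have q0 : (0 : ℤ) < 2 ^ (k + 7) := by positivity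
            have q1 := Int.mul_ediv_add_emod (y + s) (2 ^ (k + 7))
            have q2 := Int.mul_ediv_add_emod (z' + s) (2 ^ (k + 7))
            have q3 := Int.emod_nonneg (y + s) q0.ne'
            have q4 := Int.emod_nonneg (z' + s) q0.ne'
            have q5 := Int.emod_lt_of_pos (y + s) q0
            have q6 := Int.emod_lt_of_pos (z' + s) q0
            rw [h6] at q1
            rw [abs_le]
            constructor <;> linarith
          have h6 : |z - y| ≤ (ρ + 128) * 2 ^ k := by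
            have t1 : |z - y| ≤ |z - z'| + |z' - y| := abs_sub_le z z' y
            rw [abs_sub_comm z' y] at t1
            rw [e7] at h5
            have t2 : (ρ : ℤ) * (2 ^ k - 1) ≤ ρ * 2 ^ k :=
              mul_le_mul_of_nonneg_left (by linarith) hρ0
            linarith
          refine mem_filter.2 ⟨?_, (hc k z' y hy).2 h2, h6⟩
          have h7 : ((ρ : ℤ) + 128) * 2 ^ k ≤ (ρ + 128) * 2 ^ N :=
            mul_le_mul_of_nonneg_left pkN (by linarith)
          have h8 := abs_le.1 h6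
          have h9 := hI z hz
          rw [hJ, mem_Ico]
          constructor <;> linarith [h9.1, h9.2, h8.1, h8.2]
        rw [← sum_filter, sum_const, nsmul_eq_mul]
        have h5 : (2 : ℝ) ^ (k + 7) ≤
            ((J.filter fun y => ev k y ∧ |z - y| ≤ (ρ + 128) * 2 ^ k).card : ℝ) := by
          have := card_le_card h4
          rw [card_gr] at this
          exact_mod_cast this
        exact mul_le_mul_of_nonneg_right h5 (hφ k z)
      · rw [if_neg h, mul_zero]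
        exact sum_nonneg fun y _ => by
          split_ifs
          · exact hφ k z
          · exact le_rfl
    -- the mass near one point
    have h2 : ∀ y ∈ J, ∑ z ∈ I, (if ev k y ∧ |z - y| ≤ (ρ + 128) * 2 ^ k then φ k z else 0) ≤
        (ρ + 3) * (b * 2 ^ (k + 8)) * (if ev k y then (1 : ℝ) else 0) := by
      intro y _
      by_cases h : ev k y
      · rw [if_pos h, mul_one]
        simp only [h, true_and]
        rw [← sum_filter]
        have h3 := sum_le_cells (s := s) (a := y - (ρ + 128) * 2 ^ k) (k := k + 1) (m := ρ + 2)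
          (U := I.filter fun z => |z - y| ≤ (ρ + 128) * 2 ^ k) (φ k) (hφ k) (fun z hz => by
            have h4 := abs_le.1 (mem_filter.1 hz).2
            refine ⟨by linarith [h4.1], ?_⟩
            rw [e8]
            push_cast
            nlinarith [h4.2, mul_nonneg hρ0 p1.le]) (B := b * 2 ^ (k + 8)) (fun x => hφb k hk x)
        refine h3.trans (le_of_eq ?_)
        push_cast
        ring
      · rw [if_neg h, mul_zero]
        refine le_of_eq (sum_eq_zero fun z _ => if_neg fun h' => h h'.1)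
    have h3 : 2 ^ (k + 7) * ∑ z ∈ I, (if nb ρ ev k z then φ k z else 0) ≤
        2 ^ (k + 7) * (2 * (ρ + 3) * b * ∑ y ∈ J, (if ev k y then (1 : ℝ) else 0)) := by
      calc 2 ^ (k + 7) * ∑ z ∈ I, (if nb ρ ev k z then φ k z else 0)
          = ∑ z ∈ I, 2 ^ (k + 7) * (if nb ρ ev k z then φ k z else 0) := by rw [mul_sum]
        _ ≤ ∑ z ∈ I, ∑ y ∈ J, (if ev k y ∧ |z - y| ≤ (ρ + 128) * 2 ^ k then φ k z else 0) :=
            sum_le_sum h1
        _ = ∑ y ∈ J, ∑ z ∈ I, (if ev k y ∧ |z - y| ≤ (ρ + 128) * 2 ^ k then φ k z else 0) :=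
            sum_comm
        _ ≤ ∑ y ∈ J, (ρ + 3) * (b * 2 ^ (k + 8)) * (if ev k y then (1 : ℝ) else 0) :=
            sum_le_sum h2
        _ = _ := by
            rw [← mul_sum, show k + 8 = (k + 7) + 1 by omega, pow_succ]
            ring
    exact le_of_mul_le_mul_left h3 p2
  -- all scales
  have h1 : ∑ y ∈ J, ∑ k ∈ range (N + 1), (if ev k y then (1 : ℝ) else 0) ≤
      ((m + 2 * ρ + 2 : ℕ) + 1) * (K * 2 ^ (N + 7)) := by
    refine sum_le_cells (s := s) (a := a - (ρ + 128) * 2 ^ N) (k := N) (m := m + 2 * ρ + 2) _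
      (fun y => sum_nonneg fun k _ => by split_ifs <;> norm_num) ?_ (hp N hN)
    intro z hz
    rw [hJ, mem_Ico] at hz
    refine ⟨hz.1, ?_⟩
    have e7 : (2 : ℤ) ^ (N + 7) = 2 ^ N * 128 := by rw [pow_add]; norm_num
    rw [e7]
    push_cast
    have p1 : (0 : ℤ) < 2 ^ N := by positivity
    have hρ0 : (0 : ℤ) ≤ (ρ : ℤ) * 2 ^ N := mul_nonneg (Int.natCast_nonneg ρ) p1.le
    have hm0 : (0 : ℤ) ≤ (m : ℤ) * 2 ^ N := mul_nonneg (Int.natCast_nonneg m) p1.le
    nlinarith [hz.2]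
  have h2 : ∑ k ∈ range N, ∑ y ∈ J, (if ev k y then (1 : ℝ) else 0) ≤
      ∑ y ∈ J, ∑ k ∈ range (N + 1), (if ev k y then (1 : ℝ) else 0) := by
    rw [sum_comm]
    refine sum_le_sum fun y _ => ?_
    rw [sum_range_succ]
    have : (0 : ℝ) ≤ if ev N y then (1 : ℝ) else 0 := by split_ifs <;> norm_num
    linarith
  calc ∑ k ∈ range N, ∑ z ∈ I, (if nb ρ ev k z then φ k z else 0)
      ≤ ∑ k ∈ range N, 2 * (ρ + 3) * b * ∑ y ∈ J, (if ev k y then (1 : ℝ) else 0) :=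
        sum_le_sum fun k hk => key k (mem_range.1 hk)
    _ = 2 * (ρ + 3) * b * ∑ k ∈ range N, ∑ y ∈ J, (if ev k y then (1 : ℝ) else 0) := by
        rw [mul_sum]
    _ ≤ 2 * (ρ + 3) * b * (((m + 2 * ρ + 2 : ℕ) + 1) * (K * 2 ^ (N + 7))) :=
        mul_le_mul_of_nonneg_left (h2.trans h1) (by positivity)
    _ = _ := by
        push_cast
        rw [pow_add]
        ring

variable {Λ : ℕ} {A : ℕ → ℤ → ℝ} {e K : ℝ}

/-- **The changed points of a block family.**  One set `T`: the family is constant off `T`; the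
energy of the family and the measure near `T` are packed, on every window of the scale `N`. -/
theorem exists_changes (hA : CBlk0 s Λ A e K) : ∃ T : ℕ → ℤ → Prop,
    (∀ k < Λ, ∀ z, ¬ T k z → A (k + 1) z = A k z) ∧
    (∀ N ≤ Λ, ∀ (ρ m : ℕ) (a : ℤ) (I : Finset ℤ), (∀ z ∈ I, a ≤ z ∧ z < a + m * 2 ^ N) →
      ∑ k ∈ range N, ∑ z ∈ I, (if nb ρ T k z then A (k + 1) z ^ 2 else 0) ≤
        256 * (ρ + 3) * (m + 2 * ρ + 3) * (e * K * 2 ^ N)) ∧
    (∀ N ≤ Λ, ∀ (ρ m : ℕ) (a : ℤ) (I : Finset ℤ), (∀ z ∈ I, a ≤ z ∧ z < a + m * 2 ^ N) →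
      ∑ k ∈ range N, ∑ z ∈ I, (if nb ρ T k z then (1 : ℝ) else 0) ≤
        256 * (ρ + 3) * (m + 2 * ρ + 3) * (K * 2 ^ N)) := by
  obtain ⟨ev, h1, h2, h3⟩ := hA.win
  refine ⟨ev, fun k hk z hz => (h2 k z hk hz).symm, fun N hN ρ m a I hI => ?_,
    fun N hN ρ m a I hI => ?_⟩
  · exact sum_nb_le (φ := fun k z => A (k + 1) z ^ 2) (b := e) h1 h3 (fun _ _ => sq_nonneg _)
      (en_nonneg hA) hN (fun k hk x => en_sq hA (by omega : k + 1 ≤ Λ) x) hI
  · have h := sum_nb_le (φ := fun _ _ => (1 : ℝ)) (b := 1) h1 h3 (fun _ _ => zero_le_one)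
      zero_le_one hN (fun k hk x => by
        rw [sum_const, card_gr, nsmul_eq_mul, mul_one, one_mul]
        push_cast
        exact le_rfl) (ρ := ρ) hI
    rw [one_mul] at h
    exact h

/-- the family with the value `0` at the scale `0` (as the paths of the star want it) -/
def z0 (A : ℕ → ℤ → ℝ) (k : ℕ) : ℤ → ℝ := if k = 0 then fun _ => 0 else A k

theorem z0_zero (A : ℕ → ℤ → ℝ) : z0 A 0 = 0 := by
  funext z; simp [z0]

theorem z0_pos (A : ℕ → ℤ → ℝ) {k : ℕ} (hk : k ≠ 0) : z0 A k = A k := if_neg hk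

/-- **The same with `A 0 := 0`.** -/
theorem exists_changes0 (hA : CBlk0 s Λ A e K) : ∃ T : ℕ → ℤ → Prop,
    (∀ k < Λ, ∀ z, ¬ T k z → z0 A (k + 1) z = z0 A k z) ∧
    (∀ N ≤ Λ, ∀ (ρ m : ℕ) (a : ℤ) (I : Finset ℤ), (∀ z ∈ I, a ≤ z ∧ z < a + m * 2 ^ N) →
      ∑ k ∈ range N, ∑ z ∈ I, (if nb ρ T k z then z0 A (k + 1) z ^ 2 else 0) ≤
        256 * (ρ + 3) * (m + 2 * ρ + 3) * (e * (K + 1) * 2 ^ N)) ∧
    (∀ N ≤ Λ, ∀ (ρ m : ℕ) (a : ℤ) (I : Finset ℤ), (∀ z ∈ I, a ≤ z ∧ z < a + m * 2 ^ N) →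
      ∑ k ∈ range N, ∑ z ∈ I, (if nb ρ T k z then (1 : ℝ) else 0) ≤
        256 * (ρ + 3) * (m + 2 * ρ + 3) * ((K + 1) * 2 ^ N)) := by
  obtain ⟨T, h1, h2, h3⟩ := exists_changes hA
  have he := en_nonneg hA
  have hK := pack_nonneg hA
  refine ⟨fun k z => k = 0 ∨ T k z, fun k hk z hz => ?_, fun N hN ρ m a I hI => ?_,
    fun N hN ρ m a I hI => ?_⟩
  · push Not at hz
    rw [z0_pos A (Nat.succ_ne_zero k), z0_pos A hz.1]
    exact h1 k hk z hz.2
  · rcases Nat.eq_zero_or_pos N with h0 | h0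
    · subst h0
      rw [range_zero, sum_empty]
      positivity
    have h4 := h2 N hN ρ m a I hI
    have h5 : ∑ z ∈ I, A 1 z ^ 2 ≤ (m + 1) * (e * 2 ^ (N + 7)) := by
      refine sum_ico_le hA h0 hN (a := a) fun z hz => ⟨(hI z hz).1, (hI z hz).2.trans_le ?_⟩
      have : (2 : ℤ) ^ N ≤ 2 ^ (N + 7) := pow_le_pow_right₀ (by norm_num) (by omega)
      have hm0 : (0 : ℤ) ≤ (m : ℤ) := Int.natCast_nonneg m
      linarith [mul_le_mul_of_nonneg_left this hm0]
    have h6 : ∀ k ∈ range N, ∑ z ∈ I,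
        (if nb ρ (fun k z => k = 0 ∨ T k z) k z then z0 A (k + 1) z ^ 2 else 0) ≤
        ∑ z ∈ I, (if nb ρ T k z then A (k + 1) z ^ 2 else 0) +
          (if k = 0 then ∑ z ∈ I, A 1 z ^ 2 else 0) := by
      intro k _
      rw [z0_pos A (Nat.succ_ne_zero k)]
      by_cases hk : k = 0
      · subst hk
        rw [if_pos rfl]
        have h7 : (0 : ℝ) ≤ ∑ z ∈ I, (if nb ρ T 0 z then A (0 + 1) z ^ 2 else 0) :=
          sum_nonneg fun z _ => by split_ifs; exacts [sq_nonneg _, le_rfl]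
        have h8 : ∑ z ∈ I, (if nb ρ (fun k z => k = 0 ∨ T k z) 0 z then
            A (0 + 1) z ^ 2 else 0) ≤ ∑ z ∈ I, A 1 z ^ 2 :=
          sum_le_sum fun z _ => by split_ifs; exacts [le_rfl, sq_nonneg _]
        linarith
      · rw [if_neg hk, add_zero]
        refine sum_le_sum fun z _ => ?_
        by_cases h : nb ρ T k z
        · rw [if_pos h]
          split_ifs; exacts [le_rfl, sq_nonneg _]
        · have h' : ¬ nb ρ (fun k z => k = 0 ∨ T k z) k z := by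
            rintro ⟨z', hz', h9⟩
            rcases hz' with h10 | h10
            · exact hk h10
            · exact h ⟨z', h10, h9⟩
          rw [if_neg h, if_neg h']
    refine (sum_le_sum h6).trans ?_
    rw [sum_add_distrib, sum_ite_eq' (range N) 0 (fun _ => ∑ z ∈ I, A 1 z ^ 2),
      if_pos (mem_range.2 h0)]
    have h7 : ((m : ℝ) + 1) * (e * 2 ^ (N + 7)) ≤
        256 * (ρ + 3) * (m + 2 * ρ + 3) * (e * 1 * 2 ^ N) := by
      have p : (0 : ℝ) ≤ e * 2 ^ N := by positivity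
      have q : (128 : ℝ) * (m + 1) ≤ 256 * (ρ + 3) * (m + 2 * ρ + 3) := by
        have q1 : (0 : ℝ) ≤ (ρ : ℝ) := Nat.cast_nonneg ρ
        have q2 : (0 : ℝ) ≤ (m : ℝ) := Nat.cast_nonneg m
        nlinarith [mul_nonneg q1 q2, mul_nonneg q1 q1]
      calc ((m : ℝ) + 1) * (e * 2 ^ (N + 7)) = 128 * (m + 1) * (e * 2 ^ N) := by
            rw [pow_add]; ring
        _ ≤ 256 * (ρ + 3) * (m + 2 * ρ + 3) * (e * 2 ^ N) := mul_le_mul_of_nonneg_right q p
        _ = _ := by ring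
    have e1 : 256 * ((ρ : ℝ) + 3) * (m + 2 * ρ + 3) * (e * (K + 1) * 2 ^ N) =
        256 * (ρ + 3) * (m + 2 * ρ + 3) * (e * K * 2 ^ N) +
        256 * (ρ + 3) * (m + 2 * ρ + 3) * (e * 1 * 2 ^ N) := by ring
    rw [e1]
    linarith
  · rcases Nat.eq_zero_or_pos N with h0 | h0
    · subst h0
      rw [range_zero, sum_empty]
      positivity
    have h4 := h3 N hN ρ m a I hI
    have h5 : (I.card : ℝ) ≤ m * 2 ^ N := by
      have h6 : I ⊆ Ico a (a + m * 2 ^ N) := fun z hz => mem_Ico.2 (hI z hz)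
      have h7 := card_le_card h6
      rw [Int.card_Ico] at h7
      have h8 : (a + m * 2 ^ N - a).toNat = m * 2 ^ N := by
        have : a + m * 2 ^ N - a = ((m * 2 ^ N : ℕ) : ℤ) := by push_cast; ring
        rw [this, Int.toNat_natCast]
      rw [h8] at h7
      exact_mod_cast h7
    have h6 : ∀ k ∈ range N, ∑ z ∈ I,
        (if nb ρ (fun k z => k = 0 ∨ T k z) k z then (1 : ℝ) else 0) ≤
        ∑ z ∈ I, (if nb ρ T k z then (1 : ℝ) else 0) +
          (if k = 0 then (I.card : ℝ) else 0) := by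
      intro k _
      by_cases hk : k = 0
      · subst hk
        rw [if_pos rfl]
        have h7 : (0 : ℝ) ≤ ∑ z ∈ I, (if nb ρ T 0 z then (1 : ℝ) else 0) :=
          sum_nonneg fun z _ => by split_ifs <;> norm_num
        have h8 : ∑ z ∈ I, (if nb ρ (fun k z => k = 0 ∨ T k z) 0 z then (1 : ℝ) else 0) ≤
            ∑ z ∈ I, (1 : ℝ) := sum_le_sum fun z _ => by split_ifs <;> norm_num
        rw [sum_const, nsmul_eq_mul, mul_one] at h8
        linarith
      · rw [if_neg hk, add_zero]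
        refine sum_le_sum fun z _ => ?_
        by_cases h : nb ρ T k z
        · rw [if_pos h]
          split_ifs <;> norm_num
        · have h' : ¬ nb ρ (fun k z => k = 0 ∨ T k z) k z := by
            rintro ⟨z', hz', h9⟩
            rcases hz' with h10 | h10
            · exact hk h10
            · exact h ⟨z', h10, h9⟩
          rw [if_neg h, if_neg h']
    refine (sum_le_sum h6).trans ?_
    rw [sum_add_distrib, sum_ite_eq' (range N) 0 (fun _ => (I.card : ℝ)),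
      if_pos (mem_range.2 h0)]
    have h7 : (m : ℝ) * 2 ^ N ≤ 256 * (ρ + 3) * (m + 2 * ρ + 3) * 2 ^ N := by
      refine mul_le_mul_of_nonneg_right ?_ (by positivity)
      have q1 : (0 : ℝ) ≤ (ρ : ℝ) := Nat.cast_nonneg ρ
      have q2 : (0 : ℝ) ≤ (m : ℝ) := Nat.cast_nonneg m
      nlinarith [mul_nonneg q1 q2, mul_nonneg q1 q1]
    have e1 : 256 * ((ρ : ℝ) + 3) * (m + 2 * ρ + 3) * ((K + 1) * 2 ^ N) =
        256 * (ρ + 3) * (m + 2 * ρ + 3) * (K * 2 ^ N) +
        256 * (ρ + 3) * (m + 2 * ρ + 3) * 2 ^ N := by ring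
    rw [e1]
    linarith

end changes

end

end Vale.Agent.P141.H362
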