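import Vale.Agent.P141.H150.HystP

/-!
# P141, line W, end lemma: the power of the residual path in ENERGY form

`pwr_H` has the sup energy in its first term. In the star the power is summed over
the shifts and over `x0`, and there the sup energy is larger than the average by the
square of the weight ratio; the energy form loses nothing.
-/

namespace Vale.Agent.P141.H362

open Finset Vale.Agent.P141.PL Vale.Agent.P141.PL.H317
open Vale.Agent.P141.H736 Vale.Agent.P141.H958 Vale.Agent.P141.H443 Vale.Agent.P141.H150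

noncomputable section

variable {A : ℤ → ℤ → ℝ} {c ξ η : ℝ} {us : ℕ → ℤ → ℤ → Prop} {K : ℕ}

/-- **The power of the residual path, energy form**: linear in the energy of the root. -/
theorem pwr_H_en (hc : 0 ≤ c) (hξ : 0 < ξ) (hη : 0 < η)
    (hus : ∀ k n m, us k n m → us (k + 1) (n / 2) (m / 2)) {Λ : ℝ} (hΛ : 0 ≤ Λ)
    (hA : ∀ k n m, us k n m → E2 (iv k n) (iv k m) A ≤ Λ * 4 ^ k) (R S : ℤ) :
    pwr K R S (QH A c ξ η us K) (BH A c ξ η us K) ≤
      (1 + 12 * Λ * (1 / η + 2 / ξ)) * E2 (iv K R) (iv K S) A := by
  classical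
  have h1 := sumd_H (A := A) (c := c) (ξ := ξ) (η := η) (us := us) hc hΛ hA K le_rfl R S
  have h2 : pwr K R S (QH A c ξ η us K) (BH A c ξ η us K) =
      sumd (fun j a b => if QH A c ξ η us K j a b then
      E2 (iv j a) (iv j b) (BH A c ξ η us K (j + 1)) else 0) K R S := by
    unfold pwr sumd sqQ
    refine sum_congr rfl fun k _ => ?_
    rw [sum_comm]
    refine sum_congr rfl fun a _ => sum_congr rfl fun b _ => ?_
    rw [sqb_eq_E2]
  rw [h2]
  refine h1.trans ?_
  set E := E2 (iv K R) (iv K S) A with hEd
  have hE0 : 0 ≤ E := E2_nonneg _ _ _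
  have h4 := births_le (A := A) (c := c) (K := K) hc hξ hη hus R S
  have h5 := stops_le (A := A) (c := c) (ξ := ξ) (η := η) (us := us) K le_rfl R S
  have hC : (0 : ℝ) ≤ 1 / η + 2 / ξ := by positivity
  have h3 : E2 (iv K R) (iv K S) (RsH A c ξ η us K K) ≤ E := by
    rcases hs : st A c ξ η us K K R S with _ | r
    · rw [E2_RsH_none hs]
    · have hb := st_bounds le_rfl R S hs
      have hr : r = K := by omega
      rw [hr] at hs
      exact E2_RsH_birth hc hs
  have hb0 := bA_nonneg (A := A) (c := c) (ξ := ξ) (η := η) (us := us) (K := K) K R S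
  have h7 : bA A c ξ η us K K R S ≤ (1 / η + 2 / ξ) * E := by
    have : (0 : ℝ) ≤ if st A c ξ η us K K R S = some K then (4 : ℝ) ^ K else 0 := by
      split_ifs <;> positivity
    linarith
  -- the root term of the stops is paid by the energy level
  have h8 : (if st A c ξ η us K K R S = none then 0 else (4 : ℝ) ^ K) ≤
      (1 / η + 2 / ξ) * E := by
    rcases hs : st A c ξ η us K K R S with _ | r
    · rw [if_pos rfl]; positivity
    · have hb := st_bounds le_rfl R S hs
      have hr : r = K := by omega
      rw [hr] at hs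
      rw [if_neg (by simp)]
      rw [if_pos hs] at h4
      linarith
  have h9 : bA A c ξ η us K K R S + sA A c ξ η us K K R S ≤
      3 * ((1 / η + 2 / ξ) * E) := by linarith
  have h10 := mul_le_mul_of_nonneg_left h9 (by positivity : 0 ≤ 4 * Λ)
  have e : (1 + 12 * Λ * (1 / η + 2 / ξ)) * E = E + 4 * Λ * (3 * ((1 / η + 2 / ξ) * E)) := by
    ring
  rw [e]
  linarith

end

end Vale.Agent.P141.H362
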